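import Mathlib
import Crest.Agent.X212.Sf30.Le
import Crest.Agent.X212.Alg36.Hp4

-- ▼ part X212/Sf30/Lin
section

/-!
# Row 212, layer H (helper30): the Euler inequality as linear algebra over a field
-/

set_option autoImplicit false
set_option linter.unusedSectionVars false

open Module

namespace Crest.Agent.X212.Sf30

section

variable {k : Type} [Field k] {V E F : Type} [Fintype V] [Fintype E] [Fintype F]

/-- the annihilator of a subspace of `E → k` for the dot product -/
def ann (W : Submodule k (E → k)) : Submodule k (E → k) where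
  carrier := {a | ∀ w ∈ W, a ⬝ᵥ w = 0}
  add_mem' := by
    intro a b ha hb w hw
    rw [add_dotProduct, ha w hw, hb w hw, add_zero]
  zero_mem' := by intro w _; simp
  smul_mem' := by
    intro c a ha w hw
    rw [smul_dotProduct, ha w hw, smul_zero]

theorem finrank_ann (W : Submodule k (E → k)) :
    finrank k (ann W) + finrank k W = Fintype.card E := by
  classical
  let B : LinearMap.BilinForm k (E → k) := Matrix.toBilin' (1 : Matrix E E k)
  have hB : ∀ a b, B a b = a ⬝ᵥ b := by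
    intro a b
    simp [B, Matrix.toBilin'_apply']
  have hr : B.IsRefl := by
    intro a b h
    rw [hB] at h ⊢
    rw [dotProduct_comm]; exact h
  have hn : B.Nondegenerate := by
    refine ⟨?_, ?_⟩
    · intro a ha
      funext e
      have := ha (Pi.single e 1)
      rw [hB] at this
      simpa using this
    · intro a ha
      funext e
      have := ha (Pi.single e 1)
      rw [hB] at this
      simpa using this
  have h1 : ann W = B.orthogonal W := by
    ext a
    constructor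
    · intro h w hw
      show B w a = 0
      rw [hB, dotProduct_comm]; exact h w hw
    · intro h w hw
      have : B w a = 0 := h w hw
      rw [hB, dotProduct_comm] at this; exact this
  rw [h1, LinearMap.BilinForm.finrank_orthogonal hn W]
  have : finrank k W ≤ finrank k (E → k) := Submodule.finrank_le W
  rw [Module.finrank_fintype_fun_eq_card] at this ⊢
  omega

theorem range_le_ann (d : (V → k) →ₗ[k] (E → k)) (b : (F → k) →ₗ[k] (E → k))
    (ho : ∀ f x, d f ⬝ᵥ b x = 0) : LinearMap.range d ≤ ann (LinearMap.range b) := by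
  rintro _ ⟨f, rfl⟩ _ ⟨x, rfl⟩
  exact ho f x

/-- the Euler identity -/
theorem euler_eq (d : (V → k) →ₗ[k] (E → k)) (b : (F → k) →ₗ[k] (E → k)) :
    Fintype.card V + Fintype.card F + finrank k (ann (LinearMap.range b)) =
      Fintype.card E + finrank k (LinearMap.ker d) + finrank k (LinearMap.ker b) +
        finrank k (LinearMap.range d) := by
  have h1 := LinearMap.finrank_range_add_finrank_ker d
  have h2 := LinearMap.finrank_range_add_finrank_ker b
  have h3 := finrank_ann (LinearMap.range b)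
  rw [Module.finrank_fintype_fun_eq_card] at h1 h2
  omega

/-- **Euler inequality** -/
theorem euler_le (d : (V → k) →ₗ[k] (E → k)) (b : (F → k) →ₗ[k] (E → k))
    (ho : ∀ f x, d f ⬝ᵥ b x = 0) :
    Fintype.card V + Fintype.card F ≤
      Fintype.card E + finrank k (LinearMap.ker d) + finrank k (LinearMap.ker b) := by
  have h := euler_eq d b
  have := Submodule.finrank_mono (range_le_ann d b ho)
  omega

/-- in the case of equality every cocycle is a coboundary -/
theorem exact_of_euler (d : (V → k) →ₗ[k] (E → k)) (b : (F → k) →ₗ[k] (E → k))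
    (ho : ∀ f x, d f ⬝ᵥ b x = 0)
    (he : Fintype.card E + finrank k (LinearMap.ker d) + finrank k (LinearMap.ker b) ≤
      Fintype.card V + Fintype.card F) (a : E → k) (ha : ∀ x, a ⬝ᵥ b x = 0) : ∃ f, d f = a := by
  have h := euler_eq d b
  have h1 : LinearMap.range d = ann (LinearMap.range b) :=
    Submodule.eq_of_le_of_finrank_le (range_le_ann d b ho) (by omega)
  have : a ∈ LinearMap.range d := by
    rw [h1]
    rintro _ ⟨x, rfl⟩
    exact ha x
  exact this

/-- a space of constant functions has rank at most one -/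
theorem finrank_le_one_of_const (W : Submodule k (V → k))
    (h : ∀ f ∈ W, ∀ u v, f u = f v) : finrank k W ≤ 1 := by
  have : W ≤ Submodule.span k {(fun _ => 1 : V → k)} := by
    intro f hf
    rcases isEmpty_or_nonempty V with hV | ⟨⟨v⟩⟩
    · have : f = 0 := Subsingleton.elim _ _
      rw [this]; exact Submodule.zero_mem _
    · rw [Submodule.mem_span_singleton]
      refine ⟨f v, ?_⟩
      funext u
      simp [h f hf u v]
  refine (Submodule.finrank_mono this).trans ?_
  simpa using finrank_span_le_card ({(fun _ => 1 : V → k)} : Set (V → k))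

end

end Crest.Agent.X212.Sf30
end

-- ▼ part X212/Sf30/Cs
section

/-!
# Row 212, layer H (helper30): abstract cell surfaces

A cell surface is a finite set `U` of 2-cells with boundary maps `b2`, `b1`.
-/

set_option autoImplicit false
set_option linter.unusedSectionVars false

open Finset Module

namespace Crest.Agent.X212.Sf30

/-- incidence data: the edges of a 2-cell, the ends of an edge -/
structure Inc (F E V : Type) where
  b2 : F → Finset E
  b1 : E → Finset V

namespace Inc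

variable {F E V : Type} [DecidableEq F] [DecidableEq E] [DecidableEq V] (C : Inc F E V)

/-- the edges of the closure of `U` -/
def ed (U : Finset F) : Finset E := U.biUnion C.b2

/-- the ends of a set of edges -/
def vs (Z : Finset E) : Finset V := Z.biUnion C.b1

/-- the 2-cells of `U` at an edge -/
def co (U : Finset F) (e : E) : Finset F := U.filter fun f => e ∈ C.b2 f

/-- the edges of `Z` at a vertex -/
def st (Z : Finset E) (v : V) : Finset E := Z.filter fun e => v ∈ C.b1 e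

/-- the boundary edges of `U` -/
def bd (U : Finset F) : Finset E := (C.ed U).filter fun e => (C.co U e).card = 1

/-- Euler characteristic of a set of edges with their ends -/
def chi1 (Z : Finset E) : ℤ := ((C.vs Z).card : ℤ) - Z.card

/-- Euler characteristic of the closure of `U` -/
def chi (U : Finset F) : ℤ := (U.card : ℤ) + C.chi1 (C.ed U)

/-- a set of edges is connected through common ends -/
def Con1 (Z : Finset E) : Prop :=
  ∀ p : E → Prop, (∀ e ∈ Z, ∀ e' ∈ Z, ∀ v ∈ C.b1 e, v ∈ C.b1 e' → p e → p e') →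
    ∀ e ∈ Z, ∀ e' ∈ Z, p e → p e'

/-- a set of 2-cells is connected through common edges -/
def Con (U : Finset F) : Prop :=
  ∀ p : F → Prop, (∀ f ∈ U, ∀ f' ∈ U, ∀ e ∈ C.b2 f, e ∈ C.b2 f' → p f → p f') →
    ∀ f ∈ U, ∀ f' ∈ U, p f → p f'

/-- every vertex has even degree -/
def Cyc (Z : Finset E) : Prop := ∀ v, Even (C.st Z v).card

/-- the conditions on a cell surface -/
structure Srf (U : Finset F) : Prop where
  two : ∀ e ∈ C.ed U, (C.b1 e).card = 2
  le2 : ∀ e, (C.co U e).card ≤ 2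
  cyc : ∀ f ∈ U, C.Cyc (C.b2 f)
  con : ∀ f ∈ U, C.Con1 (C.b2 f)
  ne : ∀ f ∈ U, (C.b2 f).Nonempty

variable {C}

theorem mem_ed {U : Finset F} {e : E} : e ∈ C.ed U ↔ ∃ f ∈ U, e ∈ C.b2 f := by simp [ed]

theorem mem_vs {Z : Finset E} {v : V} : v ∈ C.vs Z ↔ ∃ e ∈ Z, v ∈ C.b1 e := by simp [vs]

theorem mem_co {U : Finset F} {e : E} {f : F} : f ∈ C.co U e ↔ f ∈ U ∧ e ∈ C.b2 f := by simp [co]

theorem mem_st {Z : Finset E} {v : V} {e : E} : e ∈ C.st Z v ↔ e ∈ Z ∧ v ∈ C.b1 e := by simp [st]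

theorem mem_bd {U : Finset F} {e : E} : e ∈ C.bd U ↔ (C.co U e).card = 1 := by
  simp only [bd, mem_filter, and_iff_right_iff_imp]
  intro h
  obtain ⟨f, hf⟩ := card_pos.1 (show 0 < (C.co U e).card by omega)
  exact mem_ed.2 ⟨f, (mem_co.1 hf).1, (mem_co.1 hf).2⟩

theorem ed_mono {U W : Finset F} (h : U ⊆ W) : C.ed U ⊆ C.ed W := fun _ he => by
  obtain ⟨f, hf, he⟩ := mem_ed.1 he
  exact mem_ed.2 ⟨f, h hf, he⟩

theorem vs_mono {Z Z' : Finset E} (h : Z ⊆ Z') : C.vs Z ⊆ C.vs Z' := fun _ hv => by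
  obtain ⟨e, he, hv⟩ := mem_vs.1 hv
  exact mem_vs.2 ⟨e, h he, hv⟩

theorem co_mono {U W : Finset F} (h : U ⊆ W) (e : E) : C.co U e ⊆ C.co W e := fun _ hf =>
  mem_co.2 ⟨h (mem_co.1 hf).1, (mem_co.1 hf).2⟩

theorem bd_subset (U : Finset F) : C.bd U ⊆ C.ed U := filter_subset _ _

theorem Srf.mono {U W : Finset F} (h : C.Srf W) (hU : U ⊆ W) : C.Srf U :=
  ⟨fun e he => h.two e (ed_mono hU he), fun e => (card_le_card (co_mono hU e)).trans (h.le2 e),
    fun f hf => h.cyc f (hU hf), fun f hf => h.con f (hU hf), fun f hf => h.ne f (hU hf)⟩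

theorem co_pos {U : Finset F} {e : E} (he : e ∈ C.ed U) : 0 < (C.co U e).card := by
  obtain ⟨f, hf, he⟩ := mem_ed.1 he
  exact card_pos.2 ⟨f, mem_co.2 ⟨hf, he⟩⟩

theorem co_zero {U : Finset F} {e : E} (he : e ∉ C.ed U) : (C.co U e).card = 0 := by
  rw [card_eq_zero, eq_empty_iff_forall_notMem]
  intro f hf
  exact he (mem_ed.2 ⟨f, (mem_co.1 hf).1, (mem_co.1 hf).2⟩)

/-- the parity of the number of 2-cells at an edge -/
theorem Srf.co_cast {U : Finset F} (h : C.Srf U) (e : E) :
    ((C.co U e).card : ZMod 2) = if e ∈ C.bd U then 1 else 0 := by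
  have := h.le2 e
  by_cases he : e ∈ C.bd U
  · rw [if_pos he, mem_bd.1 he]; simp
  · rw [if_neg he]
    rw [mem_bd] at he
    have : (C.co U e).card = 0 ∨ (C.co U e).card = 2 := by omega
    rcases this with h | h <;> rw [h]
    · simp
    · rfl

theorem cyc_iff {Z : Finset E} : C.Cyc Z ↔ ∀ v, ((C.st Z v).card : ZMod 2) = 0 := by
  simp [Cyc, ZMod.natCast_eq_zero_iff_even]

/-- the boundary of a cell surface is a cycle -/
theorem Srf.bd_cyc {U : Finset F} (h : C.Srf U) : C.Cyc (C.bd U) := by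
  rw [cyc_iff]
  intro v
  have h1 : ((C.st (C.bd U) v).card : ZMod 2) =
      ∑ e ∈ C.st (C.ed U) v, ((C.co U e).card : ZMod 2) := by
    simp only [h.co_cast]
    rw [sum_ite, sum_const_zero, add_zero, sum_const, nsmul_eq_mul, mul_one]
    congr 2
    ext e
    simp only [mem_st, mem_filter]
    constructor
    · rintro ⟨h1, h2⟩
      exact ⟨⟨bd_subset U h1, h2⟩, h1⟩
    · rintro ⟨⟨_, h2⟩, h1⟩
      exact ⟨h1, h2⟩
  have h2 : ∑ e ∈ C.st (C.ed U) v, (C.co U e).card = ∑ f ∈ U, (C.st (C.b2 f) v).card := by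
    simp only [co, card_filter]
    rw [sum_comm]
    refine sum_congr rfl fun f hf => ?_
    rw [← card_filter]
    congr 1
    ext e
    simp only [mem_filter, mem_st]
    constructor
    · rintro ⟨⟨_, h2⟩, h3⟩
      exact ⟨h3, h2⟩
    · rintro ⟨h3, h2⟩
      exact ⟨⟨mem_ed.2 ⟨f, hf, h3⟩, h2⟩, h3⟩
  rw [h1, ← Nat.cast_sum, h2, Nat.cast_sum]
  exact sum_eq_zero fun f hf => cyc_iff.1 (h.cyc f hf) v

/-- the edges of a connected cell surface are connected -/
theorem Srf.con1 {U : Finset F} (h : C.Srf U) (hc : C.Con U) : C.Con1 (C.ed U) := by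
  intro p hp e he e' he' hpe
  obtain ⟨f, hf, hef⟩ := mem_ed.1 he
  obtain ⟨f', hf', hef'⟩ := mem_ed.1 he'
  have key : ∀ g ∈ U, ∀ a ∈ C.b2 g, ∀ a' ∈ C.b2 g, p a → p a' := fun g hg =>
    h.con g hg p fun a ha a' ha' => hp a (mem_ed.2 ⟨g, hg, ha⟩) a' (mem_ed.2 ⟨g, hg, ha'⟩)
  have := hc (fun g => ∀ a ∈ C.b2 g, p a)
    (fun g _ g' hg' a ha ha' hq b hb => key g' hg' a ha' b hb (hq a ha)) f hf f' hf'
    (fun a ha => key f hf e hef a ha hpe)
  exact this e' hef'

end Inc

end Crest.Agent.X212.Sf30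
end

-- ▼ part X212/Sf30/Eul
section

/-!
# Row 212, layer H (helper30): `chi ≤ 2 - b`, cycles bound on discs and spheres
-/

set_option autoImplicit false
set_option linter.unusedSectionVars false

open Finset Module Matrix

namespace Crest.Agent.X212.Sf30

/-- the range of the transpose is the annihilator of the kernel -/
theorem range_transpose {k : Type} [Field k] {V E : Type} [Fintype V] [Fintype E]
    (M : Matrix E V k) (a : V → k) (ha : ∀ g, M *ᵥ g = 0 → a ⬝ᵥ g = 0) : ∃ x, Mᵀ *ᵥ x = a := by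
  classical
  have h1 : LinearMap.range Mᵀ.mulVecLin ≤ ann (LinearMap.ker M.mulVecLin) := by
    rintro _ ⟨x, rfl⟩ g hg
    have hg' : M *ᵥ g = 0 := hg
    show (Mᵀ *ᵥ x) ⬝ᵥ g = 0
    rw [mulVec_transpose, ← dotProduct_mulVec, hg', dotProduct_zero]
  have h2 := finrank_ann (LinearMap.ker M.mulVecLin)
  have h3 := LinearMap.finrank_range_add_finrank_ker M.mulVecLin
  rw [Module.finrank_fintype_fun_eq_card] at h3
  have h4 : Mᵀ.rank = M.rank := rank_transpose M
  unfold Matrix.rank at h4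
  have h5 := Submodule.eq_of_le_of_finrank_le h1 (by omega)
  have : a ∈ LinearMap.range Mᵀ.mulVecLin := by
    rw [h5]; exact fun g hg => ha g hg
  exact this

theorem z2_cases (a : ZMod 2) : a = 0 ∨ a = 1 := by revert a; decide

theorem z2_add_eq_zero {a b : ZMod 2} : a + b = 0 ↔ a = b := by revert a b; decide

namespace Inc

variable {F E V : Type} [DecidableEq F] [DecidableEq E] [DecidableEq V] {C : Inc F E V}

theorem sum_b1 {e : E} (h2 : (C.b1 e).card = 2) (g : V → ZMod 2) :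
    ∑ v ∈ C.b1 e, g v = 0 ↔ ∀ u ∈ C.b1 e, ∀ v ∈ C.b1 e, g u = g v := by
  obtain ⟨a, b, hab, h⟩ := card_eq_two.1 h2
  rw [h, sum_pair hab, z2_add_eq_zero]
  constructor
  · intro hg u hu v hv
    simp only [mem_insert, mem_singleton] at hu hv
    rcases hu with rfl | rfl <;> rcases hv with rfl | rfl <;> simp [hg]
  · intro hg
    exact hg a (by simp) b (by simp)

/-- a function with equal values at the two ends of each edge of a connected graph is constant -/
theorem Con1.const {Z : Finset E} (hc : C.Con1 Z) {α : Type} (g : V → α)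
    (hg : ∀ e ∈ Z, ∀ u ∈ C.b1 e, ∀ v ∈ C.b1 e, g u = g v) :
    ∀ u ∈ C.vs Z, ∀ v ∈ C.vs Z, g u = g v := by
  intro u hu v hv
  obtain ⟨e, he, hue⟩ := mem_vs.1 hu
  obtain ⟨e', he', hve⟩ := mem_vs.1 hv
  exact hc (fun a => ∀ w ∈ C.b1 a, g u = g w)
    (fun a _ a' ha' w hw hw' hp x hx => (hp w hw).trans (hg a' ha' w hw' x hx)) e he e' he'
    (fun w hw => hg e he u hue w hw) v hve

/-- the incidence matrix of a set of edges -/
def M1 (C : Inc F E V) (Z : Finset E) : Matrix Z (C.vs Z) (ZMod 2) :=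
  fun e v => if (v : V) ∈ C.b1 e then 1 else 0

theorem M1_mulVec (Z : Finset E) (g : V → ZMod 2) (e : Z) :
    (C.M1 Z *ᵥ fun v => g v) e = ∑ v ∈ C.b1 e, g v := by
  simp only [mulVec, dotProduct, M1, ite_mul, one_mul, zero_mul]
  rw [sum_coe_sort (C.vs Z) (fun v => if v ∈ C.b1 e then g v else 0), ← sum_filter]
  congr 1
  ext v
  simp only [mem_filter, and_iff_right_iff_imp]
  exact fun hv => mem_vs.2 ⟨e, e.2, hv⟩

theorem M1T_mulVec (Z : Finset E) (a : E → ZMod 2) (v : C.vs Z) :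
    ((C.M1 Z)ᵀ *ᵥ fun e => a e) v = ∑ e ∈ C.st Z v, a e := by
  simp only [mulVec, dotProduct, M1, transpose_apply, ite_mul, one_mul, zero_mul]
  rw [sum_coe_sort Z (fun e => if (v : V) ∈ C.b1 e then a e else 0), ← sum_filter]
  rfl

/-- extension by zero -/
def ext0 {α : Type} [DecidableEq α] {Z : Finset α} (g : Z → ZMod 2) (a : α) : ZMod 2 :=
  if h : a ∈ Z then g ⟨a, h⟩ else 0

theorem ext0_coe {α : Type} [DecidableEq α] {Z : Finset α} (g : Z → ZMod 2) :
    (fun a : Z => ext0 g a) = g := by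
  funext a; simp [ext0]

theorem ker_M1 {Z : Finset E} (h2 : ∀ e ∈ Z, (C.b1 e).card = 2) (hc : C.Con1 Z)
    (g : C.vs Z → ZMod 2) (hg : C.M1 Z *ᵥ g = 0) (u v : C.vs Z) : g u = g v := by
  have h := hc.const (ext0 g) (fun e he => (sum_b1 (h2 e he) _).1 (by
    rw [← M1_mulVec Z (ext0 g) ⟨e, he⟩, ext0_coe, hg]; rfl)) u u.2 v v.2
  simpa [ext0] using h

theorem sum_ind {α : Type} (S : Finset α) (p : α → Prop) [DecidablePred p] :
    (∑ a ∈ S, if p a then (1 : ZMod 2) else 0) = ((S.filter p).card : ZMod 2) := by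
  rw [card_filter]; push_cast; rfl

/-- **joins**: in a connected graph every even set of vertices is the odd set of a subgraph -/
theorem exists_join {Z : Finset E} (h2 : ∀ e ∈ Z, (C.b1 e).card = 2) (hc : C.Con1 Z)
    (a : V → ZMod 2) (ha : ∑ v ∈ C.vs Z, a v = 0) :
    ∃ B ⊆ Z, ∀ v ∈ C.vs Z, ((C.st B v).card : ZMod 2) = a v := by
  obtain ⟨x, hx⟩ := range_transpose (C.M1 Z) (fun v => a v) (by
    intro g hg
    rcases isEmpty_or_nonempty (C.vs Z) with h | ⟨⟨v⟩⟩
    · simp [dotProduct]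
    · have : g = fun _ => g v := funext fun u => ker_M1 h2 hc g hg u v
      rw [this]
      simp only [dotProduct]
      rw [← sum_mul, sum_coe_sort (C.vs Z) a, ha, zero_mul])
  refine ⟨Z.filter fun e => ext0 x e = 1, filter_subset _ _, fun v hv => ?_⟩
  have h := congrFun hx ⟨v, hv⟩
  rw [← ext0_coe x, M1T_mulVec] at h
  rw [← h]
  have : C.st (Z.filter fun e => ext0 x e = 1) v = (C.st Z v).filter fun e => ext0 x e = 1 := by
    ext e; simp only [mem_st, mem_filter]; tauto
  rw [this, ← sum_ind]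
  refine sum_congr rfl fun e _ => ?_
  rcases z2_cases (ext0 x e) with h | h <;> simp [h]

/-- a connected graph has Euler characteristic at most one -/
theorem chi1_le {Z : Finset E} (h2 : ∀ e ∈ Z, (C.b1 e).card = 2) (hc : C.Con1 Z) :
    C.chi1 Z ≤ 1 := by
  have h1 := LinearMap.finrank_range_add_finrank_ker (C.M1 Z).mulVecLin
  have h3 : finrank (ZMod 2) (LinearMap.ker (C.M1 Z).mulVecLin) ≤ 1 :=
    finrank_le_one_of_const _ fun g hg => ker_M1 h2 hc g hg
  have h4 := Submodule.finrank_le (LinearMap.range (C.M1 Z).mulVecLin)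
  rw [Module.finrank_fintype_fun_eq_card, Fintype.card_coe] at h1 h4
  unfold chi1
  omega

section Main

variable {ι : Type} [DecidableEq ι] {J : Finset ι}

/-- the boundary edges are sorted into classes without common vertices -/
structure Cls (C : Inc F E V) (U : Finset F) (β : E → ι) (J : Finset ι) : Prop where
  eq : ∀ e ∈ C.bd U, ∀ e' ∈ C.bd U, ∀ v ∈ C.b1 e, v ∈ C.b1 e' → β e = β e'
  mem : ∀ e ∈ C.bd U, β e ∈ J
  sur : ∀ i ∈ J, ∃ e ∈ C.bd U, β e = i

/-- the second incidence matrix, boundary classes capped off -/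
def M2 (C : Inc F E V) (U : Finset F) (β : E → ι) (J : Finset ι) :
    Matrix (C.ed U) (U ⊕ J) (ZMod 2) :=
  fun e x => Sum.elim (fun f : U => if (e : E) ∈ C.b2 f then 1 else 0)
    (fun i : J => if (e : E) ∈ C.bd U ∧ β e = i then 1 else 0) x

theorem M2_mulVec (U : Finset F) (β : E → ι) (x : U ⊕ J → ZMod 2) (e : C.ed U) :
    (C.M2 U β J *ᵥ x) e = (∑ f ∈ C.co U e, ext0 (fun f => x (Sum.inl f)) f) +
      if (e : E) ∈ C.bd U then ext0 (fun i => x (Sum.inr i)) (β e) else 0 := by
  simp only [mulVec, dotProduct, M2, Fintype.sum_sum_type, Sum.elim_inl, Sum.elim_inr, ite_mul,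
    one_mul, zero_mul]
  congr 1
  · rw [co, sum_filter, ← sum_coe_sort U]
    refine sum_congr rfl fun f _ => ?_
    simp [ext0]
  · by_cases h : (e : E) ∈ C.bd U
    · simp only [h, true_and, if_true]
      by_cases hJ : β e ∈ J
      · rw [sum_eq_single ⟨β e, hJ⟩]
        · simp [ext0, hJ]
        · intro i _ hi
          exact if_neg fun h : β e = i => hi (Subtype.ext h.symm)
        · simp
      · simp only [ext0, hJ, dite_false]
        exact sum_eq_zero fun i _ => if_neg fun h : β e = i => hJ (h ▸ i.2)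
    · simp [h]

theorem cyc_cls {U : Finset F} (h : C.Srf U) {β : E → ι} (hβ : C.Cls U β J) (i : ι) :
    C.Cyc ((C.bd U).filter fun e => β e = i) := by
  intro v
  by_cases hv : ∃ e ∈ C.bd U, v ∈ C.b1 e ∧ β e = i
  · obtain ⟨e, he, hve, hi⟩ := hv
    have : C.st ((C.bd U).filter fun e => β e = i) v = C.st (C.bd U) v := by
      ext e'
      simp only [mem_st, mem_filter]
      exact ⟨fun h => ⟨h.1.1, h.2⟩, fun h => ⟨⟨h.1, (hβ.eq e' h.1 e he v h.2 hve).trans hi⟩, h.2⟩⟩
    rw [this]; exact h.bd_cyc v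
  · have : C.st ((C.bd U).filter fun e => β e = i) v = ∅ := by
      rw [eq_empty_iff_forall_notMem]
      intro e he
      simp only [mem_st, mem_filter] at he
      exact hv ⟨e, he.1.1, he.2, he.1.2⟩
    rw [this]; simp

theorem M1T_ind {Y Z : Finset E} (hZ : Z ⊆ Y) (v : C.vs Y) :
    ((C.M1 Y)ᵀ *ᵥ fun e : Y => if (e : E) ∈ Z then (1 : ZMod 2) else 0) v = (C.st Z v).card := by
  rw [M1T_mulVec Y (fun e => if e ∈ Z then (1 : ZMod 2) else 0), sum_ind]
  congr 2
  ext e
  simp only [mem_st, mem_filter]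
  exact ⟨fun h => ⟨h.2, h.1.2⟩, fun h => ⟨⟨hZ h.1, h.2⟩, h.1⟩⟩

theorem M1_M2 {U : Finset F} (h : C.Srf U) {β : E → ι} (hβ : C.Cls U β J) :
    (C.M1 (C.ed U))ᵀ * C.M2 U β J = 0 := by
  ext v x
  rcases x with f | i
  · have := M1T_ind (C := C) (Y := C.ed U) (Z := C.b2 f)
      (fun e he => mem_ed.2 ⟨f, f.2, he⟩) v
    rw [cyc_iff.1 (h.cyc f f.2)] at this
    exact this
  · have := M1T_ind (C := C) (Y := C.ed U) (Z := (C.bd U).filter fun e => β e = i)
      ((filter_subset _ _).trans (bd_subset U)) v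
    rw [cyc_iff.1 (cyc_cls h hβ i)] at this
    simp only [mem_filter] at this
    exact this

theorem ker_M2 {U : Finset F} (h : C.Srf U) (hc : C.Con U) {β : E → ι} (hβ : C.Cls U β J)
    (x : U ⊕ J → ZMod 2) (hx : C.M2 U β J *ᵥ x = 0) (a b : U ⊕ J) : x a = x b := by
  set y := ext0 (fun f : U => x (Sum.inl f)) with hy
  have hxy : ∀ f : U, x (Sum.inl f) = y f := fun f => by simp [hy, ext0]
  have h1 : ∀ f ∈ U, ∀ f' ∈ U, y f = y f' := by
    intro f hf f' hf'
    refine hc (fun g => y f = y g) ?_ f hf f' hf' rfl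
    intro g hg g' hg' e he he' hp
    by_cases hgg : g = g'
    · rw [← hgg]; exact hp
    have hs : C.co U e = {g, g'} := by
      symm
      apply eq_of_subset_of_card_le
      · intro a ha
        simp only [mem_insert, mem_singleton] at ha
        rcases ha with rfl | rfl
        · exact mem_co.2 ⟨hg, he⟩
        · exact mem_co.2 ⟨hg', he'⟩
      · rw [card_pair hgg]; exact h.le2 e
    have := congrFun hx ⟨e, mem_ed.2 ⟨g, hg, he⟩⟩
    rw [M2_mulVec, if_neg (by rw [mem_bd, hs, card_pair hgg]; omega), add_zero, hs,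
      sum_pair hgg] at this
    exact hp.trans (z2_add_eq_zero.1 this)
  have h2 : ∀ a : U ⊕ J, ∃ f ∈ U, x a = y f := by
    rintro (f | i)
    · exact ⟨f, f.2, hxy f⟩
    · obtain ⟨e, he, hi⟩ := hβ.sur i i.2
      obtain ⟨f, hf⟩ := card_eq_one.1 (mem_bd.1 he)
      have := congrFun hx ⟨e, bd_subset U he⟩
      rw [M2_mulVec, if_pos he, hf, sum_singleton] at this
      refine ⟨f, (mem_co.1 (hf ▸ mem_singleton_self f)).1, ?_⟩
      rw [hi] at this
      have h5 : ext0 (fun i => x (Sum.inr i)) (i : ι) = x (Sum.inr i) := by simp [ext0]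
      rw [h5] at this
      exact (z2_add_eq_zero.1 this).symm
  obtain ⟨f, hf, e1⟩ := h2 a
  obtain ⟨f', hf', e2⟩ := h2 b
  rw [e1, e2, h1 f hf f' hf']

theorem orth {U : Finset F} (h : C.Srf U) {β : E → ι} (hβ : C.Cls U β J) (g : C.vs (C.ed U) → ZMod 2)
    (x : U ⊕ J → ZMod 2) : (C.M1 (C.ed U)).mulVecLin g ⬝ᵥ (C.M2 U β J).mulVecLin x = 0 := by
  show (C.M1 (C.ed U) *ᵥ g) ⬝ᵥ (C.M2 U β J *ᵥ x) = 0
  rw [← vecMul_transpose, ← dotProduct_mulVec, mulVec_mulVec, M1_M2 h hβ, zero_mulVec,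
    dotProduct_zero]

/-- **`chi ≤ 2 - b`** -/
theorem chi_le {U : Finset F} (h : C.Srf U) (hc : C.Con U) {β : E → ι} (hβ : C.Cls U β J) :
    C.chi U + J.card ≤ 2 := by
  have h0 := euler_le _ _ (orth h hβ)
  have h1 : finrank (ZMod 2) (LinearMap.ker (C.M1 (C.ed U)).mulVecLin) ≤ 1 :=
    finrank_le_one_of_const _ fun g hg => ker_M1 h.two (h.con1 hc) g hg
  have h2 : finrank (ZMod 2) (LinearMap.ker (C.M2 U β J).mulVecLin) ≤ 1 :=
    finrank_le_one_of_const _ fun x hx => ker_M2 h hc hβ x hx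
  simp only [Fintype.card_sum, Fintype.card_coe] at h0
  unfold chi chi1
  omega

/-- in the case of equality every cycle bounds -/
theorem bounds_cls {U : Finset F} (h : C.Srf U) (hc : C.Con U) {β : E → ι} (hβ : C.Cls U β J)
    (he : 2 ≤ C.chi U + J.card) {Z : Finset E} (hZ : Z ⊆ C.ed U) (hz : C.Cyc Z) :
    ∃ W ⊆ U, ∃ j : ι → ZMod 2, ∀ e ∈ C.ed U, ((C.co W e).card : ZMod 2) +
      (if e ∈ C.bd U then j (β e) else 0) = if e ∈ Z then 1 else 0 := by
  have h1 : finrank (ZMod 2) (LinearMap.ker (C.M1 (C.ed U)).mulVecLin) ≤ 1 :=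
    finrank_le_one_of_const _ fun g hg => ker_M1 h.two (h.con1 hc) g hg
  have h2 : finrank (ZMod 2) (LinearMap.ker (C.M2 U β J).mulVecLin) ≤ 1 :=
    finrank_le_one_of_const _ fun x hx => ker_M2 h hc hβ x hx
  obtain ⟨x, hx⟩ := exact_of_euler (C.M2 U β J).mulVecLin (C.M1 (C.ed U)).mulVecLin
    (fun x g => by rw [dotProduct_comm]; exact orth h hβ g x)
    (by simp only [Fintype.card_sum, Fintype.card_coe]; unfold chi chi1 at he; omega)
    (fun e => if (e : E) ∈ Z then 1 else 0) (by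
      intro g
      show _ ⬝ᵥ (C.M1 (C.ed U) *ᵥ g) = 0
      rw [dotProduct_mulVec, ← mulVec_transpose]
      have : ((C.M1 (C.ed U))ᵀ *ᵥ fun e : C.ed U => if (e : E) ∈ Z then (1 : ZMod 2) else 0) = 0 := by
        funext v
        rw [M1T_ind hZ, cyc_iff.1 hz]; rfl
      rw [this, zero_dotProduct])
  set y := ext0 (fun f : U => x (Sum.inl f)) with hy
  refine ⟨U.filter fun f => y f = 1, filter_subset _ _, ext0 fun i => x (Sum.inr i),
    fun e he => ?_⟩
  have := congrFun hx ⟨e, he⟩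
  change (C.M2 U β J *ᵥ x) _ = _ at this
  rw [M2_mulVec] at this
  rw [← this]
  congr 1
  have h3 : C.co (U.filter fun f => y f = 1) e = (C.co U e).filter fun f => y f = 1 := by
    ext f; simp only [mem_co, mem_filter]; tauto
  rw [h3, ← sum_ind]
  refine sum_congr rfl fun f _ => ?_
  rw [← hy]
  rcases z2_cases (y f) with h | h <;> simp [h]

/-- in the case of equality every cocycle is a coboundary -/
theorem cobounds_cls {U : Finset F} (h : C.Srf U) (hc : C.Con U) {β : E → ι} (hβ : C.Cls U β J)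
    (he : 2 ≤ C.chi U + J.card) (a : E → ZMod 2) (ha : ∀ f ∈ U, ∑ e ∈ C.b2 f, a e = 0)
    (hb : ∀ i ∈ J, ∑ e ∈ (C.bd U).filter (fun e => β e = i), a e = 0) :
    ∃ g : V → ZMod 2, ∀ e ∈ C.ed U, a e = ∑ v ∈ C.b1 e, g v := by
  have h1 : finrank (ZMod 2) (LinearMap.ker (C.M1 (C.ed U)).mulVecLin) ≤ 1 :=
    finrank_le_one_of_const _ fun g hg => ker_M1 h.two (h.con1 hc) g hg
  have h2 : finrank (ZMod 2) (LinearMap.ker (C.M2 U β J).mulVecLin) ≤ 1 :=
    finrank_le_one_of_const _ fun x hx => ker_M2 h hc hβ x hx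
  have key : ∀ Z ⊆ C.ed U, (∑ e : C.ed U, a e * if (e : E) ∈ Z then 1 else 0) = ∑ e ∈ Z, a e := by
    intro Z hZ
    rw [sum_coe_sort (C.ed U) (fun e => a e * if e ∈ Z then 1 else 0)]
    simp only [mul_ite, mul_one, mul_zero]
    rw [← sum_filter, filter_mem_eq_inter, inter_eq_right.2 hZ]
  obtain ⟨g, hg⟩ := exact_of_euler (C.M1 (C.ed U)).mulVecLin (C.M2 U β J).mulVecLin (orth h hβ)
    (by simp only [Fintype.card_sum, Fintype.card_coe]; unfold chi chi1 at he; omega)
    (fun e => a e) (by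
      intro x
      show _ ⬝ᵥ (C.M2 U β J *ᵥ x) = 0
      rw [dotProduct_mulVec]
      have : ((fun e : C.ed U => a e) ᵥ* C.M2 U β J) = 0 := by
        funext y
        rcases y with f | i
        · have := key (C.b2 f) (fun e he => mem_ed.2 ⟨f, f.2, he⟩)
          rw [ha f f.2] at this
          exact this
        · have := key ((C.bd U).filter fun e => β e = i) ((filter_subset _ _).trans (bd_subset U))
          rw [hb i i.2] at this
          simp only [mem_filter] at this
          exact this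
      rw [this, zero_dotProduct])
  refine ⟨ext0 g, fun e he => ?_⟩
  have := congrFun hg ⟨e, he⟩
  change (C.M1 (C.ed U) *ᵥ g) _ = _ at this
  rw [← ext0_coe g, M1_mulVec] at this
  exact this.symm

end Main

end Inc

end Crest.Agent.X212.Sf30
end

-- ▼ part X212/Sf30/Du

/-!
# Row 212, layer H (helper30): the dual cell structure; `eu ≤ 2 - b`, closed curves in a disc bound
-/

set_option autoImplicit false
set_option linter.unusedSectionVars false

open Finset Classical

noncomputable section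

namespace Crest.Agent.X212.Sf30

open Crest.Agent.X212.Hp13 Alg36

variable {P : Type} [PartialOrder P] [Fintype P] {X : Set P}

/-- the dual cells -/
def du (P : Type) [PartialOrder P] [Fintype P] : Inc P (Ch P) (Ch P) :=
  ⟨fun a => univ.filter fun e => a ∈ e.1 ∧ e.1.card = 2, fun e => univ.filter (e < ·)⟩

theorem mem_b2 {a : P} {e : Ch P} : e ∈ (du P).b2 a ↔ a ∈ e.1 ∧ e.1.card = 2 := by simp [du]

theorem mem_b1 {e t : Ch P} : t ∈ (du P).b1 e ↔ e < t := by simp [du]

theorem mem_ed_du {e : Ch P} : e ∈ (du P).ed (fs X) ↔ Mt X e ∧ e.1.card = 2 := by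
  simp only [Inc.mem_ed, mem_fs, mem_b2, Mt]
  exact ⟨fun ⟨a, h1, h2, h3⟩ => ⟨⟨a, h2, h1⟩, h3⟩, fun ⟨⟨a, h2, h1⟩, h3⟩ => ⟨a, h1, h2, h3⟩⟩

theorem card_pr {a x : P} (h : Cm a x) (hn : a ≠ x) : (pr h).1.card = 2 := card_pair hn

theorem exists_ne {c : Ch P} (h : 2 ≤ c.1.card) (a : P) : ∃ x ∈ c.1, x ≠ a :=
  exists_mem_ne h a

theorem mem_vs_du (h : Mf 2 X) {t : Ch P} :
    t ∈ (du P).vs ((du P).ed (fs X)) ↔ Mt X t ∧ t.1.card = 3 := by
  simp only [Inc.mem_vs, mem_ed_du, mem_b1]
  constructor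
  · rintro ⟨e, ⟨h1, h2⟩, h3⟩
    have := h.card_le t (h1.mono h3.le)
    have := Ch.card_lt h3
    exact ⟨h1.mono h3.le, by omega⟩
  · rintro ⟨⟨a, ha, haX⟩, h3⟩
    obtain ⟨x, hx, hn⟩ := exists_ne (c := t) (by omega) a
    have k := card_pr (t.cm ha hx) hn.symm
    exact ⟨pr (t.cm ha hx), ⟨⟨a, (mem_pr _).2 (Or.inl rfl), haX⟩, k⟩,
      (pr_le _ ha hx).lt_of_ne fun e => by rw [e] at k; omega⟩

theorem co_du {W : Finset P} {e : Ch P} (he : e.1.card = 2) :
    (du P).co W e = e.1.filter (· ∈ W) := by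
  ext a
  simp only [Inc.mem_co, mem_b2, mem_filter, he, and_true]
  exact and_comm

theorem mem_bd_du {e : Ch P} : e ∈ (du P).bd (fs X) ↔ e ∈ mix X ∧ e.1.card = 2 := by
  constructor
  · intro h
    have h1 := mem_ed_du.1 (Inc.bd_subset _ h)
    refine ⟨⟨h1.1, ?_⟩, h1.2⟩
    rw [Inc.mem_bd, co_du h1.2] at h
    by_contra k
    rw [filter_true_of_mem fun x hx => mem_fs.2 (not_not.1 fun j => k ⟨x, hx, j⟩)] at h
    omega
  · rintro ⟨⟨⟨a, ha, h1⟩, x, hx, h2⟩, h3⟩
    rw [Inc.mem_bd, co_du h3]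
    have k1 : 0 < (e.1.filter (· ∈ fs X)).card := card_pos.2 ⟨a, mem_filter.2 ⟨ha, mem_fs.2 h1⟩⟩
    have k2 : (e.1.filter (· ∈ fs X)).card < e.1.card :=
      card_lt_card (filter_ssubset.2 ⟨x, hx, fun k => h2 (mem_fs.1 k)⟩)
    omega

theorem eq_pr' {e : Ch P} (he : e.1.card = 2) {a x : P} (ha : a ∈ e.1) (hx : x ∈ e.1) (hn : a ≠ x) :
    e = pr (e.cm ha hx) :=
  (Ch.ext (eq_of_subset_of_card_le (pr_le _ ha hx) (by rw [card_pr _ hn, he]))).symm

theorem srf_du (h : Mf 2 X) : (du P).Srf (fs X) := by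
  refine ⟨fun e he => Mf.card_two h (mem_ed_du.1 he).1 (mem_ed_du.1 he).2, fun e => ?_,
    fun a ha t => ?_, fun a ha p hp e he e' he' => ?_, fun a ha => ?_⟩
  · by_cases he : e.1.card = 2
    · rw [co_du he]; exact (card_filter_le _ _).trans he.le
    · rw [Inc.co_zero fun k => he (mem_ed_du.1 k).2]; norm_num
  · by_cases k : ((du P).st ((du P).b2 a) t).Nonempty
    · obtain ⟨e, he⟩ := k
      obtain ⟨h1, h2⟩ := Inc.mem_st.1 he
      rw [mem_b2] at h1
      rw [mem_b1] at h2
      have m := h.card_le t ⟨a, h2.le h1.1, mem_fs.1 ha⟩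
      have := Ch.card_lt h2
      have k := card_between (c := Ch.pt a) (t := t) (Ch.pt_le.2 (h2.le h1.1)) (by simp; omega)
      have : (du P).st ((du P).b2 a) t = univ.filter fun e => Ch.pt a < e ∧ e < t := by
        ext f
        simp only [Inc.mem_st, mem_b2, mem_b1, mem_filter, mem_univ, true_and]
        refine and_congr_left fun hf => ⟨fun k => (Ch.pt_le.2 k.1).lt_of_ne fun e => ?_, fun k => ?_⟩
        · have := k.2; rw [← e] at this; simp at this
        · have := Ch.card_lt k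
          have := Ch.card_lt hf
          simp only [Ch.pt_val, card_singleton] at *
          exact ⟨Ch.pt_le.1 k.le, by omega⟩
      rw [this, k]; exact even_two
    · rw [not_nonempty_iff_eq_empty.1 k]; simp
  · obtain ⟨h1, h2⟩ := mem_b2.1 he
    obtain ⟨h1', h2'⟩ := mem_b2.1 he'
    obtain ⟨x, hx, hn⟩ := exists_ne h2.ge a
    obtain ⟨y, hy, hn'⟩ := exists_ne h2'.ge a
    have s : ∀ u v (hu : u ∈ lk a) (hv : v ∈ lk a), Cm u v → p (pr hu.2.symm) → p (pr hv.2.symm) :=
      fun u v hu hv huv => by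
        by_cases e : u = v
        · subst e; exact id
        have m := mem_tr hu.2.symm hv.2.symm huv
        have c3 : (tr hu.2.symm hv.2.symm huv).1.card = 3 := by
          refine card_eq_three.2 ⟨a, u, v, hu.1.symm, hv.1.symm, e, rfl⟩
        refine hp _ (mem_b2.2 ⟨(mem_pr _).2 (Or.inl rfl), card_pr _ hu.1.symm⟩) _
          (mem_b2.2 ⟨(mem_pr _).2 (Or.inl rfl), card_pr _ hv.1.symm⟩) (tr hu.2.symm hv.2.symm huv)
          (mem_b1.2 ((pr_le _ m.1 m.2.1).lt_of_ne fun e => ?_))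
          (mem_b1.2 ((pr_le _ m.1 m.2.2).lt_of_ne fun e => ?_))
        · have := card_pr hu.2.symm hu.1.symm; rw [e] at this; omega
        · have := card_pr hv.2.symm hv.1.symm; rw [e] at this; omega
    have hx' : x ∈ lk a := ⟨hn, e.cm hx h1⟩
    have hy' : y ∈ lk a := ⟨hn', e'.cm hy h1'⟩
    rw [eq_pr' h2 h1 hx hn.symm, eq_pr' h2' h1' hy hn'.symm]
    intro h0
    exact (Mf.conn_lk h (by norm_num) (mem_fs.1 ha) x hx' y hy').ind
      (p := fun u => ∀ hu : u ∈ lk a, p (pr hu.2.symm)) (fun _ => h0)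
      (fun u hu v hv huv => ⟨fun H _ => s u v hu hv (Or.inl huv) (H hu),
        fun H _ => s v u hv hu (Or.inr huv) (H hv)⟩) hy'
  · obtain ⟨t, h1, h2⟩ := h.pure (Ch.pt a) (mt_pt.2 (mem_fs.1 ha))
    obtain ⟨x, hx, hn⟩ := exists_ne (c := t) (by omega) a
    exact ⟨_, mem_b2.2 ⟨(mem_pr (t.cm (Ch.pt_le.1 h1) hx)).2 (Or.inl rfl), card_pr _ hn.symm⟩⟩

theorem con_du (hc : Conn X) : (du P).Con (fs X) := by
  intro p hp a ha b hb h0
  have s : ∀ u ∈ X, ∀ v ∈ X, Cm u v → p u → p v := fun u hu v hv huv => by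
    by_cases e : u = v
    · subst e; exact id
    exact hp u (mem_fs.2 hu) v (mem_fs.2 hv) (pr huv)
      (mem_b2.2 ⟨(mem_pr _).2 (Or.inl rfl), card_pr _ e⟩)
      (mem_b2.2 ⟨(mem_pr _).2 (Or.inr rfl), card_pr _ e⟩)
  exact (hc a (mem_fs.1 ha) b (mem_fs.1 hb)).ind h0 fun u hu v hv huv =>
    ⟨s u hu v hv (Or.inl huv), s v hv u hu (Or.inr huv)⟩

/-- in a surface `eu` is the Euler characteristic of the open star -/
theorem eu_eq_mt (h : Mf 2 X) : eu X = -∑ c ∈ univ.filter (Mt X), c.sg := by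
  have := Mf.sum_iMt h
  simp only [iMt, mul_ite, mul_one, mul_zero] at this
  rw [sum_filter, this]; ring

theorem chi_du (h : Mf 2 X) : (du P).chi (fs X) = eu X := by
  have k : ∀ n : ℕ, ∑ c ∈ (univ.filter (Mt X)).filter (fun c : Ch P => c.1.card = n), c.sg =
      (-1) ^ n * ((univ.filter (Mt X)).filter (fun c : Ch P => c.1.card = n)).card := fun n => by
    rw [sum_congr rfl (g := fun _ => (-1) ^ n) fun c hc => by rw [Ch.sg, (mem_filter.1 hc).2],
      sum_const, nsmul_eq_mul, mul_comm]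
  rw [eu_eq_mt h, ← sum_fiberwise_of_maps_to (t := {1, 2, 3}) (g := fun c : Ch P => c.1.card)
    fun c hc => by
      have := h.card_le c (mem_filter.1 hc).2
      have := c.card_pos
      simp only [mem_insert, mem_singleton]; omega,
    sum_insert (by simp), sum_pair (by simp), k, k, k, Inc.chi, Inc.chi1]
  have e1 : (fs X).card = ((univ.filter (Mt X)).filter (fun c : Ch P => c.1.card = 1)).card := by
    refine card_bij (fun a _ => Ch.pt a) (fun a ha => by simpa [mt_pt] using ha)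
      (fun a _ b _ e => by simpa using congrArg Ch.top e) fun c hc => ?_
    obtain ⟨h1, h2⟩ := mem_filter.1 hc
    have := eq_pt h2.le
    exact ⟨c.top, mem_fs.2 (mt_pt.1 (this ▸ (mem_filter.1 h1).2)), this.symm⟩
  have e2 : (du P).ed (fs X) = (univ.filter (Mt X)).filter (fun c : Ch P => c.1.card = 2) := by
    ext e; simp [mem_ed_du]
  have e3 : (du P).vs ((du P).ed (fs X)) =
      (univ.filter (Mt X)).filter (fun c : Ch P => c.1.card = 3) := by
    ext e; simp [mem_vs_du h]
  rw [e3, e2, e1]; ring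

theorem cls_du {ι : Type} [DecidableEq ι] (β : Ch P → ι) (hβ : ∀ c ∈ mix X, ∀ e, c ≤ e → β c = β e) :
    (du P).Cls (fs X) β (((du P).bd (fs X)).image β) :=
  ⟨fun e he e' he' t h1 h2 => (hβ e (mem_bd_du.1 he).1 t (mem_b1.1 h1).le).trans
    (hβ e' (mem_bd_du.1 he').1 t (mem_b1.1 h2).le).symm, fun _ he => mem_image_of_mem _ he,
    fun _ hi => mem_image.1 hi⟩

theorem exists_bd {c : Ch P} (hc : c ∈ mix X) : ∃ e ∈ (du P).bd (fs X), e ≤ c :=
  let ⟨⟨_, ha, h1⟩, _, hx, h2⟩ := hc
  ⟨pr (c.cm ha hx), mem_bd_du.2 ⟨pr_mix h1 h2 _, card_pr _ fun e => h2 (e ▸ h1)⟩, pr_le _ ha hx⟩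

/-- **`eu ≤ 2 - b`** -/
theorem eu_add_le (h : Mf 2 X) (hc : Conn X) {ι : Type} (β : Ch P → ι)
    (hβ : ∀ c ∈ mix X, ∀ e, c ≤ e → β c = β e) (J : Finset ι)
    (hJ : ∀ i ∈ J, ∃ c ∈ mix X, β c = i) : eu X + J.card ≤ 2 := by
  have := Inc.chi_le (srf_du h) (con_du hc) (cls_du β hβ)
  have k : J.card ≤ (((du P).bd (fs X)).image β).card := card_le_card fun i hi => by
    obtain ⟨c, h1, rfl⟩ := hJ i hi
    obtain ⟨e, h2, h3⟩ := exists_bd h1
    exact mem_image.2 ⟨e, h2, hβ e (mem_bd_du.1 h2).1 c h3⟩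
  rw [chi_du h] at this
  omega

/-- the boundary of a disc is connected -/
theorem conn_mix2 (h : Mf 2 X) (hc : Conn X) (h1 : 1 ≤ eu X) : Conn (mix X) := by
  intro c k c' k'
  by_contra hn
  have := eu_add_le h hc (fun e => Rch (mix X) c e) (fun a ha e hae => propext
    ⟨fun r => r.trans (Rch.of_cm ha (mix_upper ha hae) (Or.inl hae)),
      fun r => r.trans (Rch.of_cm (mix_upper ha hae) ha (Or.inr hae))⟩) {True, False}
    fun i hi => by
      rcases (by simpa using hi : i = True ∨ i = False) with rfl | rfl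
      exacts [⟨c, k, eq_true Rch.rfl⟩, ⟨c', k', eq_false hn⟩]
  rw [card_pair (by simp)] at this
  omega

theorem eu_le_one' (h : Mf 2 X) (hc : Conn X) (hm : (mix X).Nonempty) : eu X ≤ 1 := by
  have := eu_add_le h hc (fun _ => ()) (fun _ _ _ _ => rfl) {()}
    fun _ _ => let ⟨c, k⟩ := hm; ⟨c, k, rfl⟩
  simp only [card_singleton] at this
  omega

/-- **closed curves in a disc or a sphere bound**: `Z` is a set of edges, even on triangles -/
theorem bounds (h : Mf 2 X) (hc : Conn X) (h1 : 1 ≤ eu X) (h2 : (mix X).Nonempty ∨ 2 ≤ eu X)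
    (Z : Finset (Ch P)) (hZ : ∀ e ∈ Z, Mt X e ∧ e.1.card = 2)
    (hz : ∀ t, Even (Z.filter (· < t)).card) :
    ∃ W ⊆ X, ∀ e : Ch P, Mt X e → e.1.card = 2 → (e ∈ Z ↔ e ∈ mix W) := by
  obtain ⟨W, hW, j, H⟩ := Inc.bounds_cls (srf_du h) (con_du hc)
    (cls_du (fun _ => ()) fun _ _ _ _ => rfl) (by
      rw [chi_du h]
      rcases h2 with ⟨c, k⟩ | k
      · obtain ⟨e, he, -⟩ := exists_bd k
        exact le_trans (by norm_num) (add_le_add h1 (Int.natCast_pos.2
          (card_pos.2 ⟨(), mem_image_of_mem _ he⟩)))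
      · omega) (Z := Z) (fun e he => mem_ed_du.2 (hZ e he)) fun t => by
        have : (du P).st Z t = Z.filter (· < t) := filter_congr fun e _ => mem_b1
        rw [this]; exact hz t
  have par : ∀ (V : Finset P) (e : Ch P), e.1.card = 2 →
      (((e.1.filter (· ∈ V)).card : ZMod 2) = if e ∈ mix (V : Set P) then 1 else 0) :=
    fun V e he => by
      have := @mem_bd_du P _ _ (V : Set P) e
      have e1 : fs (V : Set P) = V := by ext; simp
      rw [Inc.mem_bd, co_du he, e1, and_iff_left he] at this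
      have l : (e.1.filter (· ∈ V)).card ≤ 2 := (card_filter_le _ _).trans he.le
      split_ifs with k
      · rw [this.2 k]; rfl
      · rcases (by have := mt this.1 k; omega : (e.1.filter (· ∈ V)).card = 0 ∨
          (e.1.filter (· ∈ V)).card = 2) with e | e <;> rw [e] <;> rfl
  have fin : ∀ (p q : Prop) [Decidable p] [Decidable q], ((if p then 1 else 0 : ZMod 2) = if q then 1 else 0) → (q ↔ p) :=
    fun p q _ _ => by by_cases p <;> by_cases q <;> simp [*]
  rcases z2_cases (j ()) with e0 | e0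
  · refine ⟨W, fun a ha => mem_fs.1 (hW ha), fun e he hc => fin _ _ ?_⟩
    have := H e (mem_ed_du.2 ⟨he, hc⟩)
    rw [e0, ite_self, add_zero, co_du hc, par W e hc] at this
    exact this
  · refine ⟨(fs X \ W : Finset P), fun a ha => mem_fs.1 (mem_sdiff.1 ha).1, fun e he hc => fin _ _ ?_⟩
    have := H e (mem_ed_du.2 ⟨he, hc⟩)
    rw [e0, ← (srf_du h).co_cast, co_du hc, co_du hc] at this
    rw [← this, ← par _ e hc]
    have s : (e.1.filter (· ∈ fs X)).card =
        (e.1.filter (· ∈ W)).card + (e.1.filter (· ∈ fs X \ W)).card := by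
      rw [← card_union_of_disjoint (disjoint_filter.2 fun x _ a b => (mem_sdiff.1 b).2 a),
        ← filter_or]
      refine congrArg _ (filter_congr fun x _ => ?_)
      rw [mem_sdiff]
      have := @hW x
      tauto
    rw [s]; push_cast
    rw [← add_assoc, CharTwo.add_self_eq_zero, zero_add]

end Crest.Agent.X212.Sf30
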