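import Crest.Agent.X212.Mc37.Main_Mg
import Crest.Agent.X212.Hp13.NegM
import Crest.Agent.X212.Trs39.Main
import Crest.Agent.X212.Conv33.Main

/-!
# X212 / Sf30 (helper30): P2 assembled
-/

namespace Crest.Agent.X212.Pt30

open Crest.Agent.X212.Cut21 Ind26

theorem p2_np (hp : NegPStmt) : P2Stmt (par' HBo) :=
  p2_of hp Hp13.negMStmt Inn1.inn Am43.am Am43.disc Trs39.transStmt Sm10.finStmt
    (Mcg32.p2good (Mc37.mc hp))

theorem base_cv (hb : BaseStmt Ind26.par) : BaseStmt (par' HBo) := base_of Conv33.convStmt hb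

end Crest.Agent.X212.Pt30
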